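import Crest.Agent.X212.Hel40.Defs

/-! PUSH: the joining paths are pushed towards the plateau by the flow of `-β g(tp + tm) v`. -/

set_option autoImplicit false

open Set Filter Topology Function
open scoped ContDiff Manifold
open Crest.Agent.X212.Dr59 Crest.Agent.X212.Hel40 Crest.Agent.X212.Flo26
open Crest.Agent.X212.Sep15 (CM)

noncomputable section

namespace Crest.Agent.X212.Psh23

theorem lift {z z' : ℝ → ℂ} {θ : ℝ → ℝ} (hz : ∀ s, HasDerivAt z (z' s) s) (h1 : ∀ s, ‖z s‖ = 1)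
    (hθ : ∀ s, HasDerivAt θ (star (z s) * z' s).im s) (h0 : θ 0 = 0) (T : ℝ) :
    z T = z 0 * Complex.exp (θ T * Complex.I) := by
  have e1 : ∀ s, z s * star (z s) = 1 := fun s => by
    rw [Complex.star_def, Complex.mul_conj', h1]; simp
  have e2 : ∀ s, z' s = (star (z s) * z' s).im * Complex.I * z s := fun s => by
    have a1 := (hz s).mul (hz s).star
    rw [show (z * fun x => star (z x)) = fun _ => 1 from funext e1] at a1
    have a2 := congrArg Complex.re (a1.unique (hasDerivAt_const s 1))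
    have a3 : (star (z s) * z' s).re = 0 := by
      simp only [Complex.star_def, Complex.add_re, Complex.mul_re, Complex.conj_re, Complex.conj_im,
        Complex.zero_re] at a2 ⊢
      linarith
    have a4 := Complex.re_add_im (star (z s) * z' s)
    rw [a3, Complex.ofReal_zero, zero_add] at a4
    rw [a4, mul_comm, ← mul_assoc, e1, one_mul]
  have e3 : ∀ s, HasDerivAt (fun s => z s * Complex.exp (-(θ s * Complex.I))) 0 s := fun s => by
    refine ((hz s).mul ((hθ s).ofReal_comp.mul_const Complex.I).neg.cexp).congr_deriv ?_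
    rw [Pi.neg_apply]
    nth_rewrite 1 [e2 s]
    ring
  have e4 := is_const_of_deriv_eq_zero (fun s => (e3 s).differentiableAt) (fun s => (e3 s).deriv) T 0
  rw [h0, Complex.ofReal_zero, zero_mul, neg_zero, Complex.exp_zero, mul_one] at e4
  rw [← e4, mul_assoc, ← Complex.exp_add, neg_add_cancel, Complex.exp_zero, mul_one]

/-- stop a path at its first exit from a sublevel set -/
theorem exit {X : Type*} [TopologicalSpace X] {A : Set X} {u : X → ℝ} (hu : ContinuousOn u A)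
    {x y : X} {ρ : ℝ} (h : JoinedIn A x y) (hx : u x ≤ ρ) :
    ∃ y', (y' = y ∨ u y' = ρ) ∧ JoinedIn (A ∩ {p | u p ≤ ρ}) x y' := by
  obtain ⟨γ, hγ⟩ := h
  have hA : ∀ s, γ.extend s ∈ A := fun s => hγ _
  have hc : Continuous fun s => u (γ.extend s) := hu.comp_continuous γ.continuous_extend hA
  have key : ∀ s0, 0 ≤ s0 → (∀ s ∈ Ico 0 s0, u (γ.extend s) ≠ ρ) → u (γ.extend s0) ≤ ρ →
      JoinedIn (A ∩ {p | u p ≤ ρ}) x (γ.extend s0) := fun s0 h0 h1 h2 => by
    refine ((((convex_Icc 0 s0).isPathConnected ⟨0, le_rfl, h0⟩).image γ.continuous_extend).joinedIn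
      x ⟨0, ⟨le_rfl, h0⟩, γ.extend_zero⟩ _ ⟨s0, ⟨h0, le_rfl⟩, rfl⟩).mono ?_
    rintro _ ⟨s, hs, rfl⟩
    refine ⟨hA s, show u _ ≤ ρ from not_lt.1 fun h3 => ?_⟩
    obtain ⟨s', a1, a2⟩ := intermediate_value_Ico hs.1 hc.continuousOn
      (show ρ ∈ Ico (u (γ.extend 0)) (u (γ.extend s)) from ⟨by rwa [γ.extend_zero], h3⟩)
    exact h1 s' ⟨a1.1, a1.2.trans_le hs.2⟩ a2
  by_cases hZ : (Icc (0 : ℝ) 1 ∩ {s | u (γ.extend s) = ρ}).Nonempty
  · obtain ⟨s0, a1, a2⟩ := (isCompact_Icc.inter_right (isClosed_eq hc continuous_const)).exists_isLeast hZ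
    exact ⟨_, .inr a1.2, key s0 a1.1.1
      (fun s hs e => (a2 ⟨⟨hs.1, hs.2.le.trans a1.1.2⟩, e⟩).not_gt hs.2) a1.2.le⟩
  · refine ⟨_, .inl γ.extend_one, key 1 zero_le_one (fun s hs e => hZ ⟨s, ⟨hs.1, hs.2.le⟩, e⟩)
      (not_lt.1 fun h3 => ?_)⟩
    obtain ⟨s', a1, a2⟩ := intermediate_value_Icc zero_le_one hc.continuousOn
      (show ρ ∈ Icc (u (γ.extend 0)) (u (γ.extend 1)) from ⟨by rwa [γ.extend_zero], h3.le⟩)
    exact hZ ⟨s', a1, a2⟩

theorem one {a b θ k A B Θ : ℝ → ℝ} {r ε c T : ℝ} (ha : ∀ s, HasDerivAt a (k s * A s) s)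
    (hb : ∀ s, HasDerivAt b (k s * B s) s) (hθ : ∀ s, HasDerivAt θ (k s * Θ s) s)
    (hA : ∀ s, 0 ≤ A s) (hB : ∀ s, 0 ≤ B s) (hΘ : ∀ s, 0 ≤ Θ s) (hk : ∀ s, k s ≤ 0)
    (hp : ∀ s, 0 < a s + b s) (h0 : a 0 ≤ r) (h1 : b 0 ≤ 0) (hT : 0 ≤ T) (hr : r ≤ c * T)
    (hc : ∀ s, a s ≤ r → -r ≤ b s → ε ≤ a s + b s → k s * A s + k s * B s ≤ -c) :
    a T ≤ r ∧ -r ≤ b T ∧ a T + b T ≤ ε ∧ b T ≤ b 0 ∧ θ T ≤ θ 0 := by
  have a1 := antitone_of_hasDerivAt_nonpos ha fun s => mul_nonpos_of_nonpos_of_nonneg (hk s) (hA s)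
  have a2 := antitone_of_hasDerivAt_nonpos hb fun s => mul_nonpos_of_nonpos_of_nonneg (hk s) (hB s)
  have a3 := antitone_of_hasDerivAt_nonpos hθ fun s => mul_nonpos_of_nonpos_of_nonneg (hk s) (hΘ s)
  have a4 : ∀ s, 0 ≤ s → a s ≤ r ∧ -r ≤ b s := fun s hs => by
    have := a1 hs
    exact ⟨by linarith, by linarith [hp s]⟩
  refine ⟨(a4 T hT).1, (a4 T hT).2, not_lt.1 fun h => ?_, a2 hT, a3 hT⟩
  have a5 : ∀ s, HasDerivAt (fun s => a s + b s + c * s) (k s * A s + k s * B s + c * 1) s :=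
    fun s => ((ha s).add (hb s)).add ((hasDerivAt_id s).const_mul c)
  have a6 := antitoneOn_of_hasDerivWithinAt_nonpos (convex_Icc 0 T)
    (fun s _ => (a5 s).continuousAt.continuousWithinAt) (fun s _ => (a5 s).hasDerivWithinAt)
    (fun s hs => by
      have hs' := interior_subset hs
      linarith [hc s (a4 s hs'.1).1 (a4 s hs'.1).2 (by linarith [a1 hs'.2, a2 hs'.2])])
    (left_mem_Icc.2 hT) (right_mem_Icc.2 hT) hT
  simp only at a6
  linarith [hp T]

variable {Y : CM 3} {v : Vf Y} {M M' : Set Y}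

theorem cont_mf {F : Type*} [NormedAddCommGroup F] [NormedSpace ℝ F] (hv : SmV (𝓡 3) v)
    {O : Set Y} (hO : IsOpen O) {g : Y → F} (hg : ContMDiffOn (𝓡 3) 𝓘(ℝ, F) ∞ g O) :
    ContinuousOn (fun y => mf (𝓡 3) 𝓘(ℝ, F) g y (v y)) O := by
  refine ((contMDiff_snd_tangentBundle_modelSpace (n := ∞) F 𝓘(ℝ, F)).continuous.comp_continuousOn
    ((hg.continuousOn_tangentMapWithin (by simp) hO.uniqueMDiffOn).comp
      (ContMDiff.continuous hv).continuousOn fun y hy => hy)).congr fun y hy => ?_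
  simp only [comp, tangentMapWithin, mfderivWithin_of_isOpen hO hy]
  rfl

theorem rt_eq (Φ : Y → Circle) (y : Y) :
    rt Φ v y = (star (Φ y : ℂ) * mf (𝓡 3) 𝓘(ℝ, ℂ) (fun y => (Φ y : ℂ)) y (v y)).im := by
  refine (Line51.tl_eq_sum (I := 𝓡 3) (u := Line51.sc Φ) (x := y) (v y)).trans ?_
  simp only [Finset.univ_unique, Finset.sum_singleton, Line51.sc, Matrix.of_apply, Line51.dc]

/-- the odd cut-off -/
def gg (ε t : ℝ) : ℝ := Real.smoothTransition (2 * t / ε - 1) - Real.smoothTransition (2 * -t / ε - 1)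

theorem gg_neg (ε t : ℝ) : gg ε (-t) = -gg ε t := by simp [gg]

theorem gg_zero {ε t : ℝ} (hε : 0 < ε) (h : |t| ≤ ε / 2) : gg ε t = 0 := by
  have := abs_le.1 h
  rw [gg, Real.smoothTransition.zero_of_nonpos, Real.smoothTransition.zero_of_nonpos, sub_zero] <;>
    rw [sub_nonpos, div_le_one hε] <;> linarith

theorem gg_pos {ε t : ℝ} (hε : 0 < ε) (h : 0 ≤ t) : 0 ≤ gg ε t ∧ (ε ≤ t → gg ε t = 1) := by
  rw [gg, Real.smoothTransition.zero_of_nonpos (x := 2 * -t / ε - 1)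
    (by rw [sub_nonpos, div_le_one hε]; linarith), sub_zero]
  refine ⟨Real.smoothTransition.nonneg _, fun h => Real.smoothTransition.one_of_one_le ?_⟩
  rw [le_sub_iff_add_le, le_div_iff₀ hε]; linarith

theorem key (S : Pre v M M') (hv : SmV (𝓡 3) v) {ε : ℝ} (hε : 0 < ε) :
    ∃ (P : Y → Y) (Δ : Y → ℝ), Continuous P ∧ Continuous Δ ∧ ∀ y ∈ S.B S.r,
      P y ∈ S.B S.r ∧ |S.tp (P y) + S.tm (P y)| ≤ ε ∧ S.φ (P y) = S.φ y * Circle.exp (Δ y) ∧
      (|S.tp y + S.tm y| ≤ ε / 2 → P y = y ∧ Δ y = 0) ∧ ((P y = y ∧ Δ y = 0) ∨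
        (0 < S.tp (P y) + S.tm (P y) ∧ S.tm (P y) ≤ S.tm y ∧ Δ y ≤ 0) ∨
        (S.tp (P y) + S.tm (P y) < 0 ∧ S.tp y ≤ S.tp (P y) ∧ 0 ≤ Δ y)) := by
  have := ChartedSpace.locallyCompactSpace (Sep15.EE 3) Y
  obtain ⟨K, hK, k1, k2⟩ := exists_compact_between S.cpt S.op fun y hy => hy.1
  obtain ⟨β, b1, b0, b2⟩ :=
    exists_contMDiffMap_one_nhds_of_subset_interior (n := ⊤) (𝓡 3) S.cpt.isClosed k1
  let f : Y → ℝ := fun y => -β y * gg ε (S.tp y + S.tm y)
  have f0 : ∀ y ∉ S.O, ∀ᶠ x in 𝓝 y, f x = 0 := fun y hy => by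
    filter_upwards [hK.isClosed.isOpen_compl.mem_nhds fun h => hy (k2 h)] with x hx
    simp only [f, b0 x hx, neg_zero, zero_mul]
  have hf : ContMDiff (𝓡 3) 𝓘(ℝ, ℝ) ∞ f := fun y => by
    by_cases hy : y ∈ S.O
    · have g1 : ContDiff ℝ ∞ (gg ε) := by
        unfold gg
        have := Real.smoothTransition.contDiff (n := ⊤)
        fun_prop
      exact (β.contMDiff y).neg.mul
        (g1.contMDiff.contMDiffAt.comp y ((S.sp.add S.sm).contMDiffAt (S.op.mem_nhds hy)))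
    · exact contMDiffAt_const.congr_of_eventuallyEq (f0 y hy)
  let w : Vf Y := fun y => f y • v y
  have hw : SmV (𝓡 3) w := SmV.smul hf hv
  have hd := complete_of_compactSpace hw
  have hz : ContMDiffOn (𝓡 3) 𝓘(ℝ, ℂ) ∞ (fun y => (S.φ y : ℂ)) S.O :=
    Line51.contMDiff_coe.comp_contMDiffOn S.sφ
  let R : Y → ℝ := fun y => f y * rt S.φ v y
  have hR : Continuous R := continuous_iff_continuousAt.2 fun y => by
    by_cases hy : y ∈ S.O
    · simp only [R, rt_eq]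
      exact hf.continuous.continuousAt.mul (Complex.continuous_im.continuousAt.comp
        ((hz.continuousOn.star.mul (cont_mf hv S.op hz)).continuousAt (S.op.mem_nhds hy)))
    · refine continuousAt_const (y := 0).congr ?_
      filter_upwards [f0 y hy] with x hx
      simp only [R, hx, zero_mul]
  have hF := (Cpl.contMDiff hw hd).continuous
  have tc : ContinuousOn (fun y => S.tp y + S.tm y) S.O := S.sp.continuousOn.add S.sm.continuousOn
  have nM : ∀ y, S.tp y + S.tm y ≠ 0 → y ∉ M := fun y h hy => h (by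
    obtain ⟨-, a1, a2⟩ := (S.meq y).1 hy
    rw [a1, a2, add_zero])
  obtain ⟨c, hc, hc'⟩ := (S.cpt.of_isClosed_subset ((tc.abs.mono fun y hy => hy.1).preimage_isClosed_of_isClosed
    S.cpt.isClosed (isClosed_Ici (a := ε))) inter_subset_left).exists_forall_le'
    (((cont_mf hv S.op S.sp).add (cont_mf hv S.op S.sm)).mono fun y hy => hy.1.1)
    fun y hy => S.ly y hy.1.1 hy.1.2.1 hy.1.2.2 (nM y (abs_pos.1 (hε.trans_le hy.2)))
  have hT : 0 ≤ S.r / c := (div_pos S.rpos hc).le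
  have hr : S.r ≤ c * (S.r / c) := (mul_div_cancel₀ _ hc.ne').ge
  refine ⟨fl w (S.r / c), fun y => ∫ s in (0 : ℝ)..S.r / c, R (fl w s y),
    hF.comp (f := fun y => (S.r / c, y)) (by fun_prop),
    intervalIntegral.continuous_parametric_intervalIntegral_of_continuous'
      (f := fun y s => R (fl w s y)) (hR.comp (hF.comp continuous_swap)) _ _, fun y hy => ?_⟩
  beta_reduce
  have fb : ∀ x ∈ S.B S.r, f x = -gg ε (S.tp x + S.tm x) := fun x hx => by
    have : β x = 1 := b1.self_of_nhdsSet x hx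
    simp only [f, this, neg_mul, one_mul]
  have fix : w y = 0 → fl w (S.r / c) y = y ∧ ∫ s in (0 : ℝ)..S.r / c, R (fl w s y) = 0 := fun h => by
    have : R y = 0 := by
      have : R y = dl (𝓡 3) S.φ y (w y) := (map_smul (dl (𝓡 3) S.φ y) (f y) (v y)).symm
      rw [this, h]; exact map_zero _
    simp only [(fl_of_zero hw h _).2, this, intervalIntegral.integral_zero, and_self]
  have fix' : |S.tp y + S.tm y| ≤ ε / 2 → w y = 0 := fun h => by
    simp only [w, fb y hy, gg_zero hε h, neg_zero, zero_smul]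
  by_cases h0 : w y = 0
  · obtain ⟨a1, a2⟩ := fix h0
    rw [a1, a2]
    refine ⟨hy, not_lt.1 fun h => ?_, by simp, fun _ => ⟨rfl, rfl⟩, .inl ⟨rfl, rfl⟩⟩
    have a3 := hc' y ⟨hy, h.le⟩
    have a4 : f y ≠ 0 := by
      rw [fb y hy]
      rcases le_abs.1 h.le with e | e
      · rw [(gg_pos hε (hε.le.trans e)).2 e]; norm_num
      · rw [← gg_neg, (gg_pos hε (hε.le.trans e)).2 e]; norm_num
    have a5 : ∀ g : Y → ℝ, mf (𝓡 3) 𝓘(ℝ, ℝ) g y (v y) = 0 := fun g => by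
      rw [(smul_eq_zero.1 h0).resolve_left a4]; exact map_zero _
    simp only [Pi.add_apply, a5] at a3
    linarith
  have n1 : ∀ s, f (fl w s y) ≠ 0 := fun s e => by
    have a1 : w (fl w s y) = 0 := by simp only [w, e, zero_smul]
    have a2 := (neg_mem_dom hw (hd (s, y))).2
    rw [(fl_of_zero hw a1 _).2] at a2
    exact h0 (by rwa [a2] at a1)
  have n2 : ∀ s, fl w s y ∈ S.O := fun s => by_contra fun h => n1 s (f0 _ h).self_of_nhds
  have n3 : ∀ s, S.tp (fl w s y) + S.tm (fl w s y) ≠ 0 := fun s e => n1 s (by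
    simp only [f, e, gg_zero hε (t := 0) (by rw [abs_zero]; positivity), mul_zero])
  have dv : ∀ {F : Type} [NormedAddCommGroup F] [NormedSpace ℝ F] {g : Y → F},
      ContMDiffOn (𝓡 3) 𝓘(ℝ, F) ∞ g S.O → ∀ s, HasDerivAt (fun s => g (fl w s y))
        (f (fl w s y) • mf (𝓡 3) 𝓘(ℝ, F) g (fl w s y) (v (fl w s y))) s := fun hg s =>
    (hasDerivAt_comp_fl hw (hd (s, y)) ((hg.contMDiffAt (S.op.mem_nhds (n2 s))).mdifferentiableAt
      (by simp))).congr_deriv (map_smul (mf (𝓡 3) _ _ _) _ _)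
  have gc : Continuous fun s => fl w s y := hF.comp (f := fun s => (s, y)) (by fun_prop)
  have hθ : ∀ s, HasDerivAt (fun s => ∫ u in (0 : ℝ)..s, R (fl w u y)) (R (fl w s y)) s :=
    fun s => ((hR.comp gc).integral_hasStrictDerivAt 0 s).hasDerivAt
  have l1 := lift (dv hz) (fun s => Circle.norm_coe _) (fun s => (hθ s).congr_deriv (by
    simp only [R, rt_eq, mul_smul_comm, Complex.smul_im, smul_eq_mul])) (by simp) (S.r / c)
  have l2 : S.φ (fl w (S.r / c) y) = S.φ y * Circle.exp (∫ s in (0 : ℝ)..S.r / c, R (fl w s y)) := by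
    ext; rw [l1, fl_zero hw]; simp
  have z0 := fl_zero hw y
  have sg : (∀ s, 0 < S.tp (fl w s y) + S.tm (fl w s y)) ∨
      ∀ s, S.tp (fl w s y) + S.tm (fl w s y) < 0 := by
    by_contra h
    push Not at h
    obtain ⟨⟨s, a1⟩, s', a2⟩ := h
    obtain ⟨s, a3⟩ := intermediate_value_univ s s' (tc.comp_continuous gc n2) ⟨a1, a2⟩
    exact n3 s a3
  rcases sg with sg | sg
  · have := one (dv S.sp) (dv S.sm) hθ (fun s => S.pv _ (n2 s)) (fun s => S.mv _ (n2 s))
      (fun s => S.φv _ (n2 s)) (fun s => mul_nonpos_of_nonpos_of_nonneg (neg_nonpos.2 (b2 _).1)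
        (gg_pos hε (sg s).le).1) sg (by rw [z0]; exact hy.2.1) (by rw [z0]; exact S.m0 y hy.1) hT hr
      (ε := ε) fun s a1 a2 a3 => by
        have a4 := hc' _ ⟨⟨n2 s, a1, a2⟩, le_abs.2 (.inl a3)⟩
        rw [fb _ ⟨n2 s, a1, a2⟩, (gg_pos hε (sg s).le).2 a3]
        simp only [Pi.add_apply] at a4
        linarith
    rw [z0, intervalIntegral.integral_same] at this
    exact ⟨⟨n2 _, this.1, this.2.1⟩, by rw [abs_of_pos (sg _)]; exact this.2.2.1, l2,
      fun h => fix (fix' h), .inr (.inl ⟨sg _, this.2.2.2⟩)⟩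
  · have := one (k := fun s => -f (fl w s y)) (r := S.r) (c := c)
      (fun s => (dv S.sm s).neg.congr_deriv (neg_mul _ _).symm)
      (fun s => (dv S.sp s).neg.congr_deriv (neg_mul _ _).symm)
      (fun s => (hθ s).neg.congr_deriv (neg_mul _ _).symm) (fun s => S.mv _ (n2 s))
      (fun s => S.pv _ (n2 s)) (fun s => S.φv _ (n2 s))
      (fun s => by
        have := (gg_pos hε (neg_nonneg.2 (sg s).le)).1
        rw [gg_neg] at this
        simp only [f]
        nlinarith [(b2 (fl w s y)).1])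
      (fun s => by simp only [Pi.neg_apply]; linarith [sg s])
      (by simp only [Pi.neg_apply, z0]; linarith [hy.2.2])
      (by simp only [Pi.neg_apply, z0]; linarith [S.p0 y hy.1]) hT hr
      (ε := ε) fun s a1 a2 a3 => by
        simp only [Pi.neg_apply] at a1 a2 a3
        have a0 : fl w s y ∈ S.B S.r := ⟨n2 s, by linarith, by linarith⟩
        have a4 := hc' _ ⟨a0, le_abs.2 (.inr (show ε ≤ -(_ + _) by linarith))⟩
        rw [fb _ a0, ← gg_neg, (gg_pos hε (neg_nonneg.2 (sg s).le)).2 (by linarith)]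
        simp only [Pi.add_apply] at a4
        linarith
    simp only [Pi.neg_apply, z0, intervalIntegral.integral_same] at this
    obtain ⟨a1, a2, a3, a4, a5⟩ := this
    exact ⟨⟨n2 _, by linarith, by linarith⟩, by rw [abs_of_neg (sg _)]; linarith, l2,
      fun h => fix (fix' h), .inr (.inr ⟨sg _, by linarith, by linarith⟩)⟩

theorem push : PushStmt := by
  intro Y v M M' S hv ⟨D, Q, hQ, q1, q2⟩ W hW
  let u : Y → ℝ := fun y => max (S.tp y) (-S.tm y)
  have uc : ContinuousOn u S.O := S.sp.continuousOn.sup S.sm.continuousOn.neg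
  obtain ⟨m, hm, hm'⟩ := (S.cpt.diff (isOpen_interior (s := W))).exists_forall_le' (a := 0)
    (uc.mono fun y hy => hy.1.1) fun y hy => not_le.1 fun h => hy.2
      (subset_interior_iff_mem_nhdsSet.2 hW ((S.meq y).2 ⟨hy.1.1,
        ((le_max_left _ _).trans h).antisymm (S.p0 y hy.1.1),
        (S.m0 y hy.1.1).antisymm (neg_nonpos.1 ((le_max_right _ _).trans h))⟩))
  obtain ⟨c, hc, hc'⟩ := hQ.exists_forall_le' (a := 0)
    ((S.sp.continuousOn.inf S.sm.continuousOn.neg).mono fun y hy => (q1 y hy).1)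
    fun y hy => lt_min (q1 y hy).2.2.1 (neg_pos.2 (q1 y hy).2.2.2)
  obtain ⟨P, Δ, hP, hΔ, h⟩ := key S hv (ε := m / 4) (by positivity)
  obtain ⟨D1, hD⟩ := isCompact_univ.exists_bound_of_continuousOn hΔ.continuousOn
  have sW : ∀ y ∈ S.B S.r, u y ≤ m / 2 → y ∈ W := fun y hy h =>
    interior_subset (by_contra fun h' => by linarith [hm' y ⟨hy, h'⟩])
  let ρ := min S.r (m / 8)
  have hρ : 0 < ρ := lt_min S.rpos (by positivity)
  refine ⟨S.O ∩ u ⁻¹' Iio ρ, (uc.isOpen_inter_preimage S.op isOpen_Iio).mem_nhdsSet.2 fun y hy => ?_,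
    D + D1, S.B S.r ∩ (fun y => (u y, S.tp y, -S.tm y)) ⁻¹' (Iic (m / 2) ×ˢ Ici (min c (m / 4)) ×ˢ
      Ici (min c (m / 4))), S.cpt.of_isClosed_subset (((uc.prodMk (S.sp.continuousOn.prodMk
      S.sm.continuousOn.neg)).mono fun y hy => hy.1).preimage_isClosed_of_isClosed S.cpt.isClosed
      (isClosed_Iic.prod (isClosed_Ici.prod isClosed_Ici))) inter_subset_left, fun y hy => ?_,
    fun q hq hq' => ?_⟩
  · obtain ⟨a1, a2, a3⟩ := (S.meq y).1 hy
    exact ⟨a1, by simpa [u, a2, a3] using hρ⟩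
  · have : 0 < min c (m / 4) := lt_min hc (by positivity)
    exact ⟨hy.1.1, sW y hy.1 hy.2.1, this.trans_le hy.2.2.1, neg_pos.1 (this.trans_le hy.2.2.2)⟩
  obtain ⟨a1, a2⟩ := max_lt_iff.1 (show max _ _ < ρ from hq'.2)
  have a3 := min_le_left S.r (m / 8)
  have a4 := min_le_right S.r (m / 8)
  have qB : q.1 ∈ S.B S.r := ⟨hq'.1, by linarith, by linarith⟩
  obtain ⟨q', a5, a6⟩ := q2 q hq qB
  have a7 := (a6.map (f := fun p => (P p.1, p.2 + Δ p.1)) (by fun_prop)).mono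
    (V := {p | p ∈ S.Gam ∧ p.1 ∈ S.B S.r ∧ |p.2 - q.2| ≤ D + D1 ∧ |S.tp p.1 + S.tm p.1| ≤ m / 4}) (by
      rintro _ ⟨p, ⟨⟨b1, b2, b3⟩, b4, b5⟩, rfl⟩
      obtain ⟨c1, c2, c3, -, c4⟩ := h _ b4
      refine ⟨⟨c1.1, by rw [c3, b2, Circle.exp_add], ?_⟩, c1, ?_, c2⟩
      · have d1 := S.p0 _ c1.1
        have d2 := S.m0 _ c1.1
        rcases c4 with ⟨e1, e2⟩ | ⟨e1, e2, e3⟩ | ⟨e1, e2, e3⟩
        · simpa only [e1, e2, add_zero] using b3
        · rcases b3 with b3 | b3 | b3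
          · exact .inl ⟨by linarith, by linarith [b3.2]⟩
          all_goals exact .inr (.inr ⟨by linarith, by linarith [b3.1, b3.2]⟩)
        · rcases b3 with b3 | b3 | b3
          · exact .inr (.inr ⟨by linarith [b3.1], by linarith⟩)
          · exact .inr (.inl ⟨by linarith, by linarith [b3.2]⟩)
          · exact .inr (.inr ⟨by linarith [b3.1], by linarith⟩)
      · rw [add_sub_right_comm]
        exact (abs_add_le _ _).trans (add_le_add b5 (hD _ trivial)))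
  obtain ⟨b1, b2⟩ := (h _ qB).2.2.2.1
    (abs_le.2 ⟨by linarith [S.p0 _ hq'.1], by linarith [S.m0 _ hq'.1]⟩)
  simp only [b1, b2, add_zero, Prod.mk.eta] at a7
  obtain ⟨y', b3, b4⟩ := exit (u := fun p : Y × ℝ => u p.1) (ρ := m / 2)
    (uc.comp continuous_fst.continuousOn fun p hp => hp.1.1) a7 (max_le (by linarith) (by linarith))
  obtain ⟨⟨-, c1, -, c2⟩, c3⟩ := b4.target_mem
  refine ⟨y', ⟨c1, c3, ?_⟩, b4.mono fun p hp => ⟨hp.1.1, sW _ hp.1.2.1 hp.2, hp.1.2.2.1⟩⟩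
  have d1 := min_le_left c (m / 4)
  have d2 := min_le_right c (m / 4)
  show min c (m / 4) ≤ S.tp y'.1 ∧ min c (m / 4) ≤ -S.tm y'.1
  rcases b3 with rfl | b3
  · obtain ⟨e1, e2⟩ := le_min_iff.1 (hc' _ a5)
    simp only [Pi.neg_apply] at e2
    rcases (h _ (q1 _ a5).2.1).2.2.2.2 with e | e | e
    · simp only [e.1]; exact ⟨by linarith, by linarith⟩
    all_goals exact ⟨by linarith [e.1, e.2.1], by linarith [e.1, e.2.1]⟩
  · have := abs_le.1 c2
    rcases max_cases (S.tp y'.1) (-S.tm y'.1) with e | e <;>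
      simp only [u, e.1] at b3 <;> exact ⟨by linarith, by linarith⟩

end Crest.Agent.X212.Psh23
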